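import Vale.Agent.P352X.Kin.Tr
import Vale.Agent.P352Z.P352.BW.H26.Lcc

open Vale.Agent.P352G

/-!
# P352X: the calculus of the translations (block BAS)
-/

noncomputable section

open MeasureTheory Filter Topology Complex Set

namespace Vale.Agent.P352X.Kin

open Vale.Agent.P352 SN
open GF (Ix V Theory IsLor sim o)
open H246 H496 H755 H15 BW
open H746 (nrt sim_nrt isLor_nrt)
open UniformSpace (Completion)

variable {D : Type*} [NormedAddCommGroup D] [InnerProductSpace ℂ D] [GrD D] {Q : Theory D}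
  {A : (V → V) → D → D}

/-- products of similitudes -/
lemma Ue_mulZ (R : RepZ Q A) {s s' : ℝ} {L L' M : Ix → V} (hs : 0 < s) (hs' : 0 < s')
    (hL : IsLor L) (hL' : IsLor L') (ok : OkL L L')
    (h : ∀ x, sim 1 L 0 (sim 1 L' 0 x) = sim 1 M 0 x) (y y' : V)
    (z : Completion D) : Ue Q s L y (Ue Q s' L' y' z) = Ue Q (s * s') M (sim s L y y') z := by
  rw [(ublockZ R).mul s L y s' L' y' z hs hs' hL hL' ok,
    mat_ext (L := fun m => sim 1 L 0 (L' m)) (M := M) fun x => by rw [sim_comp, h]]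

/-- similitudes and translations -/
lemma Ue_trZ (R : RepZ Q A) {s : ℝ} {L : Ix → V} (hs : 0 < s) (hL : IsLor L) (y x : V)
    (z : Completion D) :
    Ue Q s L y (Ue Q 1 GF.one x z) = Ue Q 1 GF.one (sim s L 0 x) (Ue Q s L y z) := by
  rw [Ue_mulZ R hs one_pos hL H496.isLor_one (OkL.one_r L) (M := L)
      (fun x => by rw [H26.sim_one0]),
    Ue_mulZ R one_pos hs H496.isLor_one hL (OkL.one_l L) (M := L) (fun x => by rw [H26.sim_one0]),
    mul_one, one_mul, HM.sim_tr, HM.sim_at s L y, add_comm]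

theorem urep_trZ (R : RepZ Q A) : URep fun y => Ue Q 1 GF.one y :=
  URep.of_lines (fun _ => Ue_one _) (fun x y v => (H26.Ue_ttZ (ublockZ R) x y v).symm)
    (fun x => Ue_inner one_pos H496.isLor_one x) fun _ v => H26L.tends_trZ (ublockZ R) R v

theorem exists_TCZ (R : RepZ Q A) : Nonempty (TC Q) := exists_BC isPair_mdot (urep_trZ R)

section Cov

variable (R : RepZ Q A) (C : TC Q) {s : ℝ} {L : Ix → V} (hs : 0 < s) (hL : IsLor L) (y : V)
include R hs hL

/-- **covariance of the calculus of the translations** -/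
theorem U_PhiZ {f : V → ℂ} (hf : Bd f) (v : Completion D) :
    Ue Q s L y (C.Phi f v) = C.Phi (fun p => f (du s L p)) (Ue Q s L y v) :=
  C.cov C isPair_mdot (du_meas s L) (du_pair s hL) (UL Q hs hL y) (fun x => Ue_trZ R hs hL y x v) hf

theorem U_PZ {B : Set V} (hB : MeasurableSet B) (v : Completion D) :
    Ue Q s L y (C.P B v) = C.P (du s L ⁻¹' B) (Ue Q s L y v) :=
  U_PhiZ R C hs hL y (Bd.ind hB) v

theorem nu_UZ (v : Completion D) : (C.nu (Ue Q s L y v)).map (du s L) = C.nu v :=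
  C.nu_cov C isPair_mdot (du_meas s L) (du_pair s hL) fun x => by
    rw [← Ue_trZ R hs hL, Ue_inner hs hL]

end Cov

/-- strong continuity of the null rotations -/
lemma tends_nrtZ (R : RepZ Q A) {a w : V} (ha : IsNull a) (hw : GF.mdot a w = 0)
    (z : Completion D) : Tendsto (fun t : ℝ => Ue Q 1 (nrt a (t • w)) 0 z) (𝓝 0) (𝓝 z) := by
  refine H26L.tends_UeZ (ublockZ R) R (fun _ => 1) (fun t => nrt a (t • w)) (fun _ => 0)
    (fun x => -(2 * GF.mdot w x) • a + (2 * GF.mdot a x) • w) rfl (by rw [zero_smul, nrt_zero]) rfl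
    (fun t => ⟨one_pos, H26.lor_c ha hw t⟩) (fun n x => ?_) z
  simp only [sim_nrt, md_smul, md_smul_l, Pi.add_apply, Pi.sub_apply, Pi.smul_apply, smul_eq_mul]
  have h1 := hasDerivAt_id (0 : ℝ)
  have h := (((((h1.mul_const (GF.mdot w x)).const_mul 2).mul_const (a n)).const_sub (x n)).add
    ((h1.mul_const (w n)).const_mul (2 * GF.mdot a x))).sub
    (((((h1.mul (h1.mul_const (GF.mdot w w))).const_mul 2).mul_const (GF.mdot a x)).mul_const
      (a n)))
  exact h.congr_deriv (by simp)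

section Vac

variable (R : RepZ Q A) (C : TC Q)
include R

lemma nu_omZ : C.nu (om Q) = Measure.dirac 0 := by
  refine (C.nu_unique isPair_mdot fun y => ?_).symm
  rw [integral_dirac, (ublockZ R).vac 1 _ y one_pos H496.isLor_one, inner_om]
  simp [ch, GF.mdot]

lemma Phi_omZ {f : V → ℂ} (hf : Bd f) : C.Phi f (om Q) = f 0 • om Q := by
  rw [← C.const_apply]
  refine C.congr_ae hf (Bd.const _) ?_
  rw [nu_omZ R C]
  exact ae_eq_dirac f

lemma inner_om_PhiZ {f : V → ℂ} (hf : Bd f) (v : Completion D) :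
    inner ℂ (om Q) (C.Phi f v) = f 0 * inner ℂ (om Q) v := by
  rw [C.adj' hf, Phi_omZ R C hf.cj, inner_smul_left, conj_conj]

lemma inner_om_UZ {s : ℝ} {L : Ix → V} (hs : 0 < s) (hL : IsLor L) (y : V) (v : Completion D) :
    inner ℂ (om Q) (Ue Q s L y v) = inner ℂ (om Q) v := by
  rw [← Ue_inner (Q := Q) hs hL y (om Q) v, (ublockZ R).vac s L y hs hL]

/-- the ray of a null vector has measure zero -/
theorem nu_rayZ {a : V} (ha : IsNull a) (v : Completion D) :
    C.nu v {p | GF.mdot a p = 0 ∧ p ≠ 0} = 0 := by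
  obtain ⟨b, hb, hab⟩ := exists_dual ha
  obtain ⟨w, haw, hbw, hww⟩ := H993.exists_w a b
  have hA : MeasurableSet {p : V | (GF.mdot a p = 0 ∧ p ≠ 0) ∧ p ∈ Cone} :=
    ((measurableSet_eq_fun (meas_md a) measurable_const).inter
      (measurableSet_singleton 0).compl).inter meas_cone
  have h := Calc.nu_zero_of_move (C := C.toCalc) (v := v) (l := 𝓝[≠] (0 : ℝ))
    (W := fun t => Ue Q 1 (nrt b (t • w)) 0) (k := fun t => du 1 (nrt b (t • w)))
    (fun _ => du_meas _ _) hA (fun t => U_PZ R C one_pos (H26.lor_c hb hbw t) 0 hA v)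
    ((tends_nrtZ R hb hbw _).mono_left nhdsWithin_le_nhds) (by
      filter_upwards [self_mem_nhdsWithin] with t ht p hp h1
      have h2 := h1.1.1
      rw [du_pair' 1 (H26.lor_c hb hbw t)] at h2
      refine hp.1.2 (eq_zero_of_orth (t := a + sim 1 (nrt b (t • w)) 0 a) ?_ hp.2.2 ?_)
      · have : 0 < t ^ 2 := by have : t ≠ 0 := ht; positivity
        rw [md_add, md_add_l, md_add_l, md_LL (H26.lor_c hb hbw t), ha.1, md_comm _ a]
        simp only [sim_nrt, md_add, md_sub, md_smul, md_smul_l, ha.1, hab, haw, hww,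
          md_comm w a, md_comm b a]
        nlinarith
      · rw [md_add_l, hp.1.1, h2, add_zero])
  refine measure_mono_null_ae ?_ h
  filter_upwards [cone C v] with p h1 h2
  exact ⟨h2, h1⟩

/-- the space-like directions `w`: hyperplanes `w·p = 0` off the ray have measure zero -/
theorem nu_perp0Z {a w : V} (ha : IsNull a) (haw : GF.mdot a w = 0) (hww : GF.mdot w w ≠ 0)
    (v : Completion D) : C.nu v {p | GF.mdot w p = 0 ∧ GF.mdot a p ≠ 0} = 0 := by
  have hA : MeasurableSet {p : V | GF.mdot w p = 0 ∧ GF.mdot a p ≠ 0} :=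
    (measurableSet_eq_fun (meas_md w) measurable_const).inter
      (measurableSet_eq_fun (meas_md a) measurable_const).compl
  refine Calc.nu_zero_of_move (C := C.toCalc) (v := v) (l := 𝓝[≠] (0 : ℝ))
    (W := fun t => Ue Q 1 (nrt a (t • w)) 0) (k := fun t => du 1 (nrt a (t • w)))
    (fun _ => du_meas _ _) hA (fun t => U_PZ R C one_pos (H26.lor_c ha haw t) 0 hA v)
    ((tends_nrtZ R ha haw _).mono_left nhdsWithin_le_nhds) ?_
  filter_upwards [self_mem_nhdsWithin] with t ht p hp h1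
  have h2 := h1.1
  rw [du_pair' 1 (H26.lor_c ha haw t)] at h2
  simp only [sim_nrt, md_add_l, md_sub_l, md_smul_l, haw, hp.1] at h2
  have h3 : t * GF.mdot w w * GF.mdot a p = 0 := by linarith
  exact mul_ne_zero (mul_ne_zero ht hww) hp.2 h3

variable (hV : UVac Q)
include hV

theorem P_zeroZ (v : Completion D) : C.P {0} v = inner ℂ (om Q) v • om Q := by
  have hA := measurableSet_singleton (0 : V)
  obtain ⟨c, hc⟩ := hV (C.P {0} v) fun y => (C.inv_iff isPair_mdot y _).2 (by
    rw [Calc.nu_P hA]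
    filter_upwards [ae_restrict_mem hA] with p hp
    rw [hp]
    simp [ch, GF.mdot])
  have h1 := inner_om_PhiZ R C (Bd.ind hA) v
  rw [← Calc.P, hc, inner_smul_right, inner_om] at h1
  rw [hc]
  simpa using congrArg (· • om Q) h1

theorem nu_zeroZ {v : Completion D} (hv : inner ℂ (om Q) v = 0) : C.nu v {0} = 0 := by
  rw [C.nu_eq_zero (measurableSet_singleton 0), P_zeroZ R C hV, hv, zero_smul]

/-- **BAS (b)**: the light cone momenta do not vanish on vectors orthogonal to the vacuum -/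
theorem ae_md_posZ {a : V} (ha : IsNull a) {v : Completion D} (hv : inner ℂ (om Q) v = 0) :
    ∀ᵐ p ∂C.nu v, 0 < GF.mdot a p := by
  filter_upwards [cone C v, measure_eq_zero_iff_ae_notMem.1 (nu_rayZ R C ha v),
    measure_eq_zero_iff_ae_notMem.1 (nu_zeroZ R C hV hv)] with p h1 h2 h3
  exact (Cone.md_nonneg ha h1).lt_of_ne fun h => h2 ⟨h.symm, h3⟩

theorem ae_perp_neZ {a w : V} (ha : IsNull a) (haw : GF.mdot a w = 0) (hww : GF.mdot w w ≠ 0)
    {v : Completion D} (hv : inner ℂ (om Q) v = 0) : ∀ᵐ p ∂C.nu v, GF.mdot w p ≠ 0 := by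
  filter_upwards [ae_md_posZ R C hV ha hv,
    measure_eq_zero_iff_ae_notMem.1 (nu_perp0Z R C ha haw hww v)] with p h1 h2 h3
  exact h2 ⟨h3, h1.ne'⟩

omit hV in
lemma P_vacZ {B : Set V} (hB : MeasurableSet B) (h0 : (0 : V) ∈ B)
    (h : ∀ v, inner ℂ (om Q) v = 0 → ∀ᵐ p ∂C.nu v, p ∉ B) (v : Completion D) :
    C.P B v = inner ℂ (om Q) v • om Q := by
  have h1 := (C.nu_eq_zero hB _).1 (measure_eq_zero_iff_ae_notMem.2
    (h (v - inner ℂ (om Q) v • om Q) (by rw [inner_sub_right, inner_smul_right, inner_om]; simp)))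
  rw [map_sub, map_smul, sub_eq_zero] at h1
  rw [h1, Calc.P, Phi_omZ R C (Bd.ind hB), indicator_of_mem h0, one_smul]

include C in
/-- **WN**: similitudes that rescale a null vector by factors tending to zero or infinity map the
vectors orthogonal to the vacuum weakly to zero -/
theorem weak_nullZ {a : V} (ha : IsNull a) {ι : Type*} {l : Filter ι} [l.IsCountablyGenerated]
    {s r : ι → ℝ} {L : ι → Ix → V} (hs : ∀ i, 0 < s i) (hL : ∀ i, IsLor (L i)) (y : ι → V)
    (hr : ∀ i, sim (s i) (L i) 0 a = r i • a) (h : Tendsto r l atTop ∨ Tendsto r l (𝓝 0))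
    {η : Completion D} (hη : inner ℂ (om Q) η = 0) {E : ι → Completion D}
    (hE : Tendsto E l (𝓝 η)) (w : Completion D) :
    Tendsto (fun i => inner ℂ w (Ue Q (s i) (L i) (y i) (E i))) l (𝓝 (0 : ℂ)) := by
  have hA : ∀ n : ℕ, MeasurableSet {p : V | ((n : ℝ) + 1)⁻¹ ≤ |GF.mdot a p| ∧
      |GF.mdot a p| ≤ (n : ℝ) + 1} := fun n =>
    (measurableSet_le measurable_const (meas_md a).abs).inter
      (measurableSet_le (meas_md a).abs measurable_const)
  refine Calc.weak_null (C := C.toCalc) (C' := C.toCalc) (K := 1)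
    (fun i u u' => by rw [← Ue_sub (hs i) (hL i), Ue_norm (hs i) (hL i), one_mul])
    (fun i u => by rw [Ue_norm (hs i) (hL i), one_mul]) (fun i => du_meas (s i) (L i)) hA
    (fun i n => U_PZ R C (hs i) (hL i) (y i) (hA n) η) ?_ (fun n => Eventually.of_forall fun p => ?_)
    hE
  · filter_upwards [ae_md_posZ R C hV ha hη] with p hp
    have h1 : Tendsto (fun n : ℕ => (n : ℝ) + 1) atTop atTop :=
      tendsto_natCast_atTop_atTop.atTop_add tendsto_const_nhds
    filter_upwards [h1.inv_tendsto_atTop.eventually_le_const (abs_pos.2 hp.ne'),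
      h1.eventually_ge_atTop |GF.mdot a p|] with n h2 h3
    exact ⟨h2, h3⟩
  · have hn : (0 : ℝ) < ((n : ℝ) + 1)⁻¹ := by positivity
    simp only [mem_ofPred_eq, du_pair' _ (hL _), hr, md_smul_l]
    rcases h with h | h
    · by_cases h0 : GF.mdot a p = 0
      · exact Eventually.of_forall fun i h1 => by simp [h0] at h1; linarith [h1.1]
      · filter_upwards [((tendsto_abs_atTop_atTop.comp h).atTop_mul_const
          (abs_pos.2 h0)).eventually_gt_atTop ((n : ℝ) + 1)] with i hi h1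
        rw [abs_mul] at h1
        exact absurd h1.2 (not_le.2 hi)
    · have h1 := (h.mul_const (GF.mdot a p)).abs
      rw [zero_mul, abs_zero] at h1
      filter_upwards [h1.eventually_lt_const hn] with i hi h2
      exact absurd h2.1 (not_le.2 hi)

include C in
/-- **THIN**: averages over large parts of a subgroup of translations that contains a null or a
space-like direction converge to the projection onto the vacuum -/
theorem thinZ {E : Type*} [NormedAddCommGroup E] [NormedSpace ℝ E] [FiniteDimensional ℝ E]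
    [MeasurableSpace E] [BorelSpace E] (μ : Measure E) [μ.IsAddHaarMeasure] (e : E →L[ℝ] V)
    {x : E} (hx : IsNull (e x) ∨ ∃ a, IsNull a ∧ GF.mdot a (e x) = 0 ∧ GF.mdot (e x) (e x) ≠ 0)
    {u : E → ℂ} (hu : Integrable u μ) (v : Completion D) :
    Tendsto (fun t : ℝ => ∫ y, u y • Ue Q 1 GF.one (e (t • y)) v ∂μ) atTop
      (𝓝 ((∫ y, u y ∂μ) • inner ℂ (om Q) v • om Q)) := by
  obtain ⟨hB, h⟩ := C.ergodic isPair_mdot μ e hu v
  rwa [P_vacZ R C hB (fun y => by simp [GF.mdot]) fun v hv => ?_] at h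
  rcases hx with hx | ⟨a, ha, h1, h2⟩
  · filter_upwards [ae_md_posZ R C hV hx hv] with p hp h3
    exact hp.ne' ((md_comm _ _).trans (h3 x))
  · filter_upwards [ae_perp_neZ R C hV ha h1 h2 hv] with p hp h3
    exact hp ((md_comm _ _).trans (h3 x))

end Vac

/-- **PIG**: vectors that are Lipschitz under the null rotations that fix `b` have small
components at small `a·p` and not too small `b·p` -/
theorem pigZ (R : RepZ Q A) (C : TC Q) {a b e : V} (ha : IsNull a) (hb : IsNull b)
    (hab : GF.mdot a b = 1) (hae : GF.mdot a e = 0) (hbe : GF.mdot b e = 0)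
    (hee : GF.mdot e e = -1) {ρ lam σ Λ : ℝ} (hl : 0 < lam) (hσ : 0 < σ)
    (h : 2 * ρ < σ ^ 2 * lam) {w : Completion D}
    (hw : ∀ t : ℝ, 0 ≤ t → ‖Ue Q 1 (nrt b (t • e)) 0 w - w‖ ≤ Λ * t) {N : ℕ} (hN : 0 < N) :
    ‖C.P {p | GF.mdot a p ≤ ρ ∧ lam ≤ GF.mdot b p} w‖ ≤ ‖w‖ / √N + Λ * (N * σ) := by
  have hA : MeasurableSet {p : V | GF.mdot a p ≤ ρ ∧ lam ≤ GF.mdot b p} :=
    (measurableSet_le (meas_md a) measurable_const).inter
      (measurableSet_le measurable_const (meas_md b))
  have hB : MeasurableSet {p : V | |GF.mdot e p| < σ * GF.mdot b p} :=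
    measurableSet_lt (meas_md e).abs (measurable_const.mul (meas_md b))
  have hΛ : 0 ≤ Λ := by simpa using (norm_nonneg _).trans (hw 1 zero_le_one)
  refine (Calc.norm_P_mono hA hB ?_).trans ?_
  · filter_upwards [cone C w] with p hp h1
    have h2 := perp_sq_le ha hb hab hae hbe hee p
    have h3 : 0 < GF.mdot b p := hl.trans_le h1.2
    refine abs_lt_of_sq_lt_sq ?_ (by positivity)
    nlinarith [hp.2, mul_le_mul_of_nonneg_right h1.1 h3.le, mul_lt_mul_of_pos_right h h3,
      mul_le_mul_of_nonneg_left h1.2 (mul_nonneg (sq_nonneg σ) h3.le)]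
  have h1 := Calc.pigeon_move (C := C.toCalc) (v := w) (s := Finset.range N)
    (Finset.nonempty_range_iff.2 hN.ne') (W := fun j : ℕ => Ue Q 1 (nrt b ((j * σ) • e)) 0)
    (fun j => Ue_norm one_pos (H26.lor_c hb hbe _) 0) (k := fun j : ℕ => du 1 (nrt b ((j * σ) • e)))
    (fun _ => du_meas _ _) hB (fun j => U_PZ R C one_pos (H26.lor_c hb hbe _) 0 hB w)
    (fun i _ j _ hij p h1 h2 => by
      simp only [mem_ofPred_eq, du_pair' 1 (H26.lor_c hb hbe _), sim_nrt, md_add_l, md_sub_l,
        md_smul_l, md_smul, hbe, hee, hb.1, md_comm e b, abs_lt] at h1 h2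
      have h3 : 0 < σ * GF.mdot b p := by linarith [h1.1, h1.2]
      rcases lt_or_gt_of_ne hij with h4 | h4
      · have : (i : ℝ) + 1 ≤ j := by exact_mod_cast h4
        nlinarith [h1.1, h2.2]
      · have : (j : ℝ) + 1 ≤ i := by exact_mod_cast h4
        nlinarith [h1.2, h2.1]) (ε := Λ * (N * σ)) (fun j hj => (hw _ (by positivity)).trans (by
      have : (j : ℝ) ≤ N := by exact_mod_cast (Finset.mem_range.1 hj).le
      gcongr))
  rwa [Finset.card_range] at h1

end Vale.Agent.P352X.Kin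

end
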