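import Vale.Agent.P352X.Kin.KT
import Vale.Agent.P352Z.P352X.Kin.Tr

open Vale.Agent.P352G

/-!
# P352X: the joint calculus of `K`, `M₁`, `M₂` and `P` (block KT)
-/

noncomputable section

open MeasureTheory Filter Topology Complex Set
open scoped ComplexConjugate

namespace Vale.Agent.P352X.Kin

open Vale.Agent.P352 SN
open GF (Ix V Theory IsLor sim o)
open H246 H496 H755 H15 BW
open H746 (nrt sim_nrt isLor_nrt nrt_fix)
open UniformSpace (Completion)

namespace Fr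

variable {a b : V} {e : Fin 2 → V} (F : Fr a b e)
include F

end Fr

namespace Fr

variable {a b : V} {e : Fin 2 → V} (F : Fr a b e)
include F

end Fr

variable {D : Type*} [NormedAddCommGroup D] [InnerProductSpace ℂ D] [GrD D] {Q : Theory D}
  {A : (V → V) → D → D} {𝒜 : Set V → VonNeumannAlgebra (Completion D)}
  {S : V → ℝ → Completion D →L[ℂ] Completion D} {a b : V} {e : Fin 2 → V}

theorem urep_GZ (R : RepZ Q A) (F : Fr a b e) : URep fun w : E2 => Ue Q 1 (Gm a e w) 0 := by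
  refine URep.of_lines (fun v => by rw [Gm_zero, Ue_one]) (fun x y v => ?_)
    (fun x => Ue_inner one_pos (F.lor x) 0) fun y v => ?_
  · rw [Ue_mulZ R one_pos one_pos (F.lor x) (F.lor y) (OkL.nrt F.ha _ _) (F.Gm_add x y), mul_one,
      H26.sim_00]
  · simp only [Gm, tv_smul, smul_comm (2⁻¹ : ℝ)]
    exact tends_nrtZ R F.ha (by rw [md_smul, F.a_tv, mul_zero]) v

theorem urep_aZ (R : RepZ Q A) (a : V) : URep fun t : ℝ => Ue Q 1 GF.one (t • a) :=
  (urep_trZ R).comp (fun x y => add_smul x y a) (by fun_prop)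

lemma G_aZ (R : RepZ Q A) (F : Fr a b e) (w : E2) (t : ℝ) (z : Completion D) :
    Ue Q 1 (Gm a e w) 0 (Ue Q 1 GF.one (t • a) z) =
      Ue Q 1 GF.one (t • a) (Ue Q 1 (Gm a e w) 0 z) := by
  rw [Ue_trZ R one_pos (F.lor w), F.Gm_a]

lemma G_tvZ (R : RepZ Q A) (F : Fr a b e) (w y : E2) (z : Completion D) :
    Ue Q 1 (Gm a e w) 0 (Ue Q 1 GF.one (tv e y) z) =
      Ue Q 1 GF.one (tv e y + dot w y • a) (Ue Q 1 (Gm a e w) 0 z) := by
  rw [Ue_trZ R one_pos (F.lor w), F.Gm_tv]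

lemma S_tvZ (R : RepZ Q A) (h : Grp1 Q 𝒜 S) (F : Fr a b e) (c : ℝ) (y : E2) (z : Completion D) :
    S a c (Ue Q 1 GF.one (tv e y) z) = Ue Q 1 GF.one (tv e y + (c * dot y y) • a)
      (Ue Q 1 (Gm a e ((2 * c) • y)) 0 (S a c z)) := by
  rw [h.tra a (tv e y) c (Gm a e ((2 * c) • y)) z F.ha (F.a_tv y) (F.lor _) fun x => by
      simp only [F.sim_Gm, tv_smul, md_smul_l, F.tv_tv, dot2, Pi.smul_apply, smul_eq_mul]
      module,
    Ue_mulZ R one_pos one_pos H496.isLor_one (F.lor _) (OkL.one_l _) (fun x => H26.sim_one0 _),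
    mul_one, HM.sim_tr, zero_add, F.tv_tv]
  congr 1
  module

theorem urep_WkZ (R : RepZ Q A) (h : Grp1 Q 𝒜 S) (F : Fr a b e) : URep (Wk Q S a e) :=
  (urep_S h.toGrp0 F.ha).prod ((urep_GZ R F).prod (urep_aZ R a) (G_aZ R F)) fun c y z => by
    simp only [S_G h.toGrp0 F, S_a h F.ha]

theorem exists_KCZ (R : RepZ Q A) (h : Grp1 Q 𝒜 S) (F : Fr a b e) : Nonempty (KC Q S a e) :=
  exists_BC isPair_pk (urep_WkZ R h F)

section Calc

variable (C : KC Q S a e)

variable (R : RepZ Q A) (h : Grp1 Q 𝒜 S) (F : Fr a b e)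
include R h F

lemma tv_WkZ (y : E2) (x : KX) (z : Completion D) : Ue Q 1 GF.one (tv e y) (Wk Q S a e x z) =
    Wk Q S a e (x.1, x.2.1 - (2 * x.1) • y, x.2.2 + x.1 * dot y y - dot x.2.1 y)
      (Ue Q 1 GF.one (tv e y) z) := by
  have hT := (urep_trZ R).add
  have hG := (urep_GZ R F).add
  simp only [Wk]
  rw [← hT, add_comm _ (tv e y), hT, G_tvZ R F, hT, S_tvZ R h F]
  simp only [S_G h.toGrp0 F, S_a h F.ha, G_aZ R F]
  simp only [← hT, ← hG, add_sub_cancel]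
  congr 1
  simp only [dot2, Pi.sub_apply, Pi.smul_apply, smul_eq_mul]
  module

/-- **covariance under the transverse translations** -/
theorem tv_PhiZ (y : E2) {f : KX → ℂ} (hf : Bd f) (v : Completion D) :
    Ue Q 1 GF.one (tv e y) (C.Phi f v) =
      C.Phi (fun q => f (ky y q)) (Ue Q 1 GF.one (tv e y) v) :=
  C.cov C isPair_pk (ky_meas y) (fun q x => by
    simp only [pk, ky, dot2, Pi.sub_apply, Pi.smul_apply, smul_eq_mul]; ring)
    (UL Q one_pos H496.isLor_one (tv e y)) (fun x => tv_WkZ R h F y x v) hf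

theorem tv_nuZ (y : E2) (v : Completion D) :
    (C.nu (Ue Q 1 GF.one (tv e y) v)).map (ky y) = C.nu v :=
  Calc.nu_intertwine (W := Ue Q 1 GF.one (tv e y)) (Ue_norm one_pos H496.isLor_one _) (ky_meas y)
    fun _ hB => tv_PhiZ C R h F y (Bd.ind hB) v

section Scale

variable {σ ρ : ℝ} {L : Ix → V} (hσ : 0 < σ) (hρ : 0 < ρ) (hL : IsLor L)
  (hLa : sim 1 L 0 a = ρ • a) (hLe : ∀ w, sim 1 L 0 (tv e w) = tv e w)
include hσ hρ hL hLa hLe

omit hρ h in
lemma sc_GZ (w : E2) (z : Completion D) : Ue Q σ L 0 (Ue Q 1 (Gm a e w) 0 z) =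
    Ue Q 1 (Gm a e (ρ • w)) 0 (Ue Q σ L 0 z) := by
  rw [R.ue_cj 0 z hσ hL (F.lor w) (F.lor (ρ • w)) F.ha (AN.nrt _ _) (fun x => ?_), H26.sim_00,
    sub_zero]
  have e1 : ρ * GF.mdot a (sim 1 L 0 x) = GF.mdot a x := by
    rw [← md_smul_l, ← hLa, md_LL hL]
  have e2 : GF.mdot (tv e w) (sim 1 L 0 x) = GF.mdot (tv e w) x := by
    rw [← md_LL hL (tv e w) x, hLe]
  rw [F.sim_Gm, F.sim_Gm]
  simp only [simL_add, simL_sub, simL_smul, hLa, hLe, tv_smul, md_smul_l, e2, ← e1, dot2,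
    Pi.smul_apply, smul_eq_mul]
  module

lemma sc_WkZ (x : KX) (z : Completion D) : Ue Q σ L 0 (Wk Q S a e x z) =
    Wk Q S a e (ρ / σ * x.1, ρ • x.2.1, σ * ρ * x.2.2) (Ue Q σ L 0 z) := by
  simp only [Wk]
  rw [h.cov σ L ρ a a _ _ hσ hρ hL F.ha F.ha hLa, sc_GZ R F hσ hL hLa hLe, Ue_trZ R hσ hL, sim_s σ,
    simL_smul, hLa, smul_smul, smul_smul, mul_right_comm]

/-- **covariance under the similitudes that preserve the frame** -/
theorem sc_PhiZ {f : KX → ℂ} (hf : Bd f) (v : Completion D) :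
    Ue Q σ L 0 (C.Phi f v) = C.Phi (fun q => f (ks σ ρ q)) (Ue Q σ L 0 v) :=
  C.cov C isPair_pk (ks_meas σ ρ) (fun q x => by
    simp only [pk, ks, dot2, Pi.smul_apply, smul_eq_mul]; ring)
    (UL Q hσ hL 0) (fun x => sc_WkZ R h F hσ hρ hL hLa hLe x v) hf

end Scale

lemma knu_omZ : C.nu (om Q) = Measure.dirac 0 := by
  refine (C.nu_unique isPair_pk fun y => ?_).symm
  rw [integral_dirac, Wk, (ublockZ R).vac 1 _ _ one_pos H496.isLor_one,
    (ublockZ R).vac 1 _ _ one_pos (F.lor _), h.vac a _ F.ha, inner_om]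
  simp [ch, pk, dot2]

lemma kPhi_omZ {f : KX → ℂ} (hf : Bd f) : C.Phi f (om Q) = f 0 • om Q := by
  rw [← C.const_apply]
  refine C.congr_ae hf (Bd.const _) ?_
  rw [knu_omZ C R h F]
  exact ae_eq_dirac f

variable (hV : UVac Q)
include hV

theorem ae_p_posZ {v : Completion D} (hv : inner ℂ (om Q) v = 0) : ∀ᵐ q ∂C.nu v, 0 < q.2.2 := by
  obtain ⟨Ct⟩ := exists_TCZ R
  have h1 := ae_md_posZ R Ct hV F.ha hv
  have hm : MeasurableSet {t : ℝ | 0 < t} := measurableSet_Ioi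
  rw [← ae_map_iff (meas_md a).aemeasurable hm, ← (common_P C h.toGrp0 F.ha Ct).2.1,
    ae_map_iff (f := fun q : KX => q.2.2) (measurable_snd.comp measurable_snd).aemeasurable hm]
    at h1
  exact h1

theorem ae_pZ (v : Completion D) : ∀ᵐ q ∂C.nu v, 0 < q.2.2 ∨ q = 0 := by
  rw [← sub_add_cancel v (inner ℂ (om Q) v • om Q)]
  refine Calc.ae_add (B := {q : KX | 0 < q.2.2 ∨ q = 0}) ?_ (Calc.ae_smul _ ?_)
  · exact (ae_p_posZ C R h F hV (by rw [inner_sub_right, inner_smul_right, inner_om]; simp)).mono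
      fun q => Or.inl
  · rw [knu_omZ C R h F, ae_dirac_eq]
    exact Or.inr rfl

theorem ae_k0_nonnegZ (v : Completion D) : ∀ᵐ q ∂C.nu v, 0 ≤ k0 q := by
  filter_upwards [ae_pZ C R h F hV v] with q hq
  rcases hq with hq | rfl
  · rw [k0, dot2]
    exact div_nonneg (add_nonneg (mul_self_nonneg _) (mul_self_nonneg _)) hq.le
  · simp [k0]

/-- functions of `K - M²/P` commute with the transverse translations -/
theorem tv_ktZ (y : E2) {f : ℝ → ℂ} (hf : Bd f) (v : Completion D) :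
    Ue Q 1 GF.one (tv e y) (C.Phi (fun q => f (kt q)) v) =
      C.Phi (fun q => f (kt q)) (Ue Q 1 GF.one (tv e y) v) := by
  rw [tv_PhiZ C R h F y (hf.comp kt_meas)]
  refine C.congr_ae (hf.comp (kt_meas.comp (ky_meas y))) (hf.comp kt_meas) ?_
  filter_upwards [ae_pZ C R h F hV _] with q hq
  rw [Function.comp_apply, kt_ky y hq]

/-- **K0 criterion** -/
theorem k0_critZ {ψ ψ' : Completion D} (hψ : inner ℂ (om Q) ψ' = 0)
    (h1 : C.Dom (fun q => (dot q.2.1 q.2.1 : ℝ)) ψ) (h2 : C.Dom (fun q => (q.2.2 : ℂ)) ψ')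
    (h3 : C.Psi (fun q => (dot q.2.1 q.2.1 : ℝ)) ψ = C.Psi (fun q => (q.2.2 : ℂ)) ψ') :
    C.Dom (fun q => (k0 q : ℂ)) ψ ∧ C.Psi (fun q => (k0 q : ℂ)) ψ = ψ' := by
  simpa only [k0, ofReal_div] using Calc.Psi_div h1 h2 h3
    ((ae_p_posZ C R h F hV hψ).mono fun q hq => ofReal_ne_zero.2 hq.ne')

variable (hpos : ∀ z w : Completion D, HasDerivAt (fun c : ℝ => S a c z) (I • w) 0 →
  0 ≤ (inner ℂ z w).re)
include hpos

omit hV in
theorem ae_ky_nonnegZ (y : E2) (v : Completion D) : ∀ᵐ q ∂C.nu v, 0 ≤ (ky y q).1 := by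
  have h1 := ae_k_nonneg C hpos (Ue Q 1 GF.one (-tv e y) v)
  rw [← tv_nuZ C R h F y, (urep_trZ R).neg_right,
    ae_map_iff (ky_meas y).aemeasurable (measurableSet_le measurable_const measurable_fst)] at h1
  exact h1

/-- **positivity of `K - M²/P`** -/
theorem ae_kt_nonnegZ (v : Completion D) : ∀ᵐ q ∂C.nu v, 0 ≤ kt q := by
  obtain ⟨s, hs, hd⟩ := TopologicalSpace.exists_countable_dense E2
  filter_upwards [ae_pZ C R h F hV v, (ae_ball_iff hs).2 fun y _ => ae_ky_nonnegZ C R h F hpos y v]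
    with q hq h1
  rcases hq with hq | rfl
  · have hc : Continuous fun y : E2 => (ky y q).1 := by
      simp only [ky, dot2]
      fun_prop
    have h2 : 0 ≤ (ky (q.2.2⁻¹ • q.2.1) q).1 :=
      closure_minimal h1 (isClosed_le continuous_const hc) (hd _)
    refine h2.trans_eq ?_
    simp only [kt, k0, ky, dot2, Pi.smul_apply, smul_eq_mul]
    field_simp
    ring
  · simp [kt, k0]

theorem ae_kt_leZ (v : Completion D) : ∀ᵐ q ∂C.nu v, |kt q| ≤ |q.1| ∧ |k0 q| ≤ |q.1| := by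
  filter_upwards [ae_kt_nonnegZ C R h F hV hpos v, ae_k0_nonnegZ C R h F hV v] with q h1 h2
  rw [kt] at h1
  rw [kt, abs_of_nonneg h1, abs_of_nonneg h2, abs_of_nonneg (by linarith : 0 ≤ q.1)]
  constructor <;> linarith

/-- **`D(K) = D(Kt) ∩ D(K0)`**, `K = Kt + K0` -/
theorem dom_KZ {v : Completion D} : C.Dom (fun q => (q.1 : ℂ)) v ↔
    C.Dom (fun q => (kt q : ℂ)) v ∧ C.Dom (fun q => (k0 q : ℂ)) v := by
  constructor
  · intro hv
    have h1 := ae_kt_leZ C R h F hV hpos v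
    exact ⟨hv.of_le (measurable_ofReal.comp kt_meas) (K := 1) (h1.mono fun q hq => by
        simpa using hq.1),
      hv.of_le (measurable_ofReal.comp k0_meas) (K := 1) (h1.mono fun q hq => by simpa using hq.2)⟩
  · intro hv
    simpa [kt] using hv.1.add hv.2

theorem norm_kt_powZ (n : ℕ) {v : Completion D} (hv : C.Dom (fun q => (q.1 : ℂ) ^ n) v) :
    C.Dom (fun q => (kt q : ℂ) ^ n) v ∧
      ‖C.Psi (fun q => (kt q : ℂ) ^ n) v‖ ≤ ‖C.Psi (fun q => (q.1 : ℂ) ^ n) v‖ := by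
  have hm : Measurable fun q => (kt q : ℂ) ^ n := (measurable_ofReal.comp kt_meas).pow_const n
  have h1 : ∀ᵐ q ∂C.nu v, ‖(kt q : ℂ) ^ n‖ ≤ 1 * ‖(q.1 : ℂ) ^ n‖ := by
    filter_upwards [ae_kt_leZ C R h F hV hpos v] with q hq
    rw [one_mul, norm_pow, norm_pow, norm_real, norm_real]
    exact pow_le_pow_left₀ (norm_nonneg _) hq.1 n
  exact ⟨hv.of_le hm h1, by simpa using Calc.norm_Psi_le hv hm zero_le_one h1⟩

end Calc

end Vale.Agent.P352X.Kin

end
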